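import Vale.Agent.P267.H824.Fin
import Vale.Agent.P267.H877.Leaves

/-!
# P267, package XM-H1 / XT-INPUTS (helper824): the three `H1Leaf` statements of `H877/Leaves.lean`
-/

set_option linter.unusedSectionVars false
set_option linter.unusedVariables false

open scoped Manifold ContDiff Topology Matrix
open Set Filter

noncomputable section

namespace Vale.Agent.P267.H824

open FL XT RR BlockC H158

/-- version of `h1m_gen` with the vanishing statements as hypotheses -/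
theorem h1m_van {M : Type} [TopologicalSpace M] [ChartedSpace C2 M] [IsManifold 𝓘(ℂ, C2) ω M]
    {Y : Type} [TopologicalSpace Y] [ChartedSpace C2 Y] [IsManifold 𝓘(ℂ, C2) ω Y]
    {ι : Type} [Fintype ι] [DecidableEq ι] {D : XTData M} {m : ℕ} (hm : 0 < m) {q : M → Y}
    (hq : IsQuot D m q) (hY : RRIn Y) (L : LB M ι) (a : M → Fin 2 → ℂ) (hL : L.IsHol a)
    (ha : ∀ x, a (D.sh m x) = a x) {μ : ℂ} (hμ : μ ≠ 0) (r : ℕ)
    (V0 : D.V0m 0 L a m μ) (V2 : D.V0m 1 L.dual (fun x i => -a x i) m μ⁻¹)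
    (L' : LB Y ι) (hL' : ∀ x, L'.P (q x) = L.P x)
    (num : ∀ K : ALB Y, IsCanon K.L → isec L' L' - isec K.L L' = -(2 * (r : ℂ))) :
    D.H1m L a m μ r := by
  obtain ⟨K, hK⟩ := hY.canon
  have hP : ∀ x, L.P (D.sh m x) = L.P x := fun x => by rw [← hL', hq.sh, hL']
  have hm' : (m : ℤ) ≠ 0 := by exact_mod_cast hm.ne'
  have hn : isec (hq.lbd L hP) (hq.lbd L hP) - isec (hq.lbd L hP) K.L = -(2 * (r : ℂ)) := by
    rw [lbd_eq hq hP hL', isec_comm L' K.L]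
    exact num K hK
  have h := eqEx hm' hq hY.fin hY.serre hY.rr hY.chiO K.L hK L a hL hP ha hμ r V0 V2 hn
  intro g hg
  obtain ⟨c, hc, u, h1, h2, h3, h4⟩ :=
    h g fun i => ⟨(hg i).1, (hg i).2.1, (hg i).2.2.2, (hg i).2.2.1⟩
  exact ⟨c, hc, u, h1, h2, h3, h4⟩

section leaf

variable {X : Type} [TopologicalSpace X] [ChartedSpace C2 X] [IsManifold 𝓘(ℂ, C2) ω X]
  {hh : C(X, UnitAddCircle)}
variable {ι : Type} [Fintype ι] [DecidableEq ι]

/-- the number of a periodic extension: `χ = -r` -/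
theorem h1Leaf_gen (D : XTData (Cov hh)) (hγ : ∀ x, D.γ x = Cov.γ x) (hf : ∀ x, D.f x = Cov.f x)
    (hY : ∀ (m : ℕ) [NeZero m], RRIn (CovM hh m)) (L : LB (Cov hh) ι) (i₀ : ι) (R : ℝ) (r : ℕ)
    (per : ∀ (m : ℕ) [NeZero m], 2 * R ≤ m → ∃ E' : LB (CovM hh m) ι, IsPer hh m L E' ∧
      ∀ K : ALB (CovM hh m), IsCanon K.L → isec E' E' - isec K.L E' = -(2 * (r : ℂ))) :
    D.H1Leaf L i₀ R r := by
  intro a N m₀ Lm am hN hE hS
  obtain ⟨k, hk⟩ := exists_nat_ge (2 * R)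
  refine ⟨max (max m₀ k) 1, fun m hm μ hμ V0 V2 => ?_⟩
  have h1 : 1 ≤ m := (le_max_right _ _).trans hm
  have h2 : m₀ ≤ m := (le_max_left _ _).trans ((le_max_left _ _).trans hm)
  have h3 : k ≤ m := (le_max_right _ _).trans ((le_max_left _ _).trans hm)
  have : NeZero m := ⟨by omega⟩
  have h4 : 2 * R ≤ (m : ℝ) := hk.trans (by exact_mod_cast h3)
  obtain ⟨E', hE', num⟩ := per m h4
  exact h1m_van (by omega) (isQuot_toM D hγ m) (hY m) (Lm m) (am m) (hS.hol m h2)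
    (fun x => hS.pera m h2 x) hμ r V0 V2 E'
    (per_P D hγ hf (fun x => hS.perP m h2 x) hE') num

/-- `E.E = K.E = -1` -/
theorem h1Leaf_good (D : XTData (Cov hh)) (hγ : ∀ x, D.γ x = Cov.γ x)
    (hf : ∀ x, D.f x = Cov.f x) (hY : ∀ (m : ℕ) [NeZero m], RRIn (CovM hh m))
    (L : LB (Cov hh) ι) (i₀ : ι) (R : ℝ)
    (per : ∀ (m : ℕ) [NeZero m], 2 * R ≤ m → ∃ E' : LB (CovM hh m) ι, IsPer hh m L E' ∧
      isec E' E' = -1 ∧ ∀ K : ALB (CovM hh m), IsCanon K.L → isec K.L E' = -1) :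
    D.H1Leaf L i₀ R 0 := by
  refine h1Leaf_gen D hγ hf hY L i₀ R 0 fun m _ hm => ?_
  obtain ⟨E', h1, h2, h3⟩ := per m hm
  exact ⟨E', h1, fun K hK => by rw [h2, h3 K hK]; norm_num⟩

/-- the dual of `E`, `E.E = K.E = -1` -/
theorem h1Leaf_good_dual [T2Space X] [CompactSpace X] (D : XTData (Cov hh))
    (hγ : ∀ x, D.γ x = Cov.γ x)
    (hf : ∀ x, D.f x = Cov.f x) (hY : ∀ (m : ℕ) [NeZero m], RRIn (CovM hh m))
    (L : LB (Cov hh) ι) (i₀ : ι) (R : ℝ)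
    (per : ∀ (m : ℕ) [NeZero m], 2 * R ≤ m → ∃ E' : LB (CovM hh m) ι, IsPer hh m L E' ∧
      isec E' E' = -1 ∧ ∀ K : ALB (CovM hh m), IsCanon K.L → isec K.L E' = -1) :
    D.H1Leaf L.dual i₀ R 1 := by
  refine h1Leaf_gen D hγ hf hY L.dual i₀ R 1 fun m _ hm => ?_
  obtain ⟨E', h1, h2, h3⟩ := per m hm
  refine ⟨E'.dual, fun x hx => ?_, fun K hK => ?_⟩
  · change (E'.P (Cov.toM m x))ᵀ = (L.P x)ᵀ
    rw [h1 x hx]
  · rw [isec_dual_dual, isec_comm K.L, isec_dual_left, isec_comm E' K.L, h2, h3 K hK]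
    norm_num

/-- functions -/
theorem h1Leaf_triv [T2Space X] (D : XTData (Cov hh)) (hγ : ∀ x, D.γ x = Cov.γ x)
    (hf : ∀ x, D.f x = Cov.f x) (hY : ∀ (m : ℕ) [NeZero m], RRIn (CovM hh m)) (i₀ : ι) (R : ℝ) :
    D.H1Leaf (LB.triv i₀ : LB (Cov hh) ι) i₀ R 0 := by
  refine h1Leaf_gen D hγ hf hY (LB.triv i₀) i₀ R 0 fun m _ hm => ?_
  refine ⟨LB.triv i₀, fun x hx => rfl, fun K hK => ?_⟩
  rw [isec_triv_left, isec_comm, isec_triv_left]
  norm_num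

end leaf

end Vale.Agent.P267.H824
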