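import Vale.Agent.P267.H824.H1m
import Vale.Agent.P267.H283.BlockC
import Vale.Agent.P267.H622.CovMaps

/-!
# P267, package XM-H1, part 4 (helper824): final form

* `RRIn Y` : what is used about the closed surface `Y = X_m`;
* `isQuot_toM` : `Cov.toM m : Cov hh → CovM hh m` is the quotient by `γ^m`;
* `h1m_gen`, `h1m_good` (`e.e = K.e = -1`: `H1m .. 0`), `h1m_good_dual` (`H1m .. 1` for the dual),
  `h1m_triv` (`H1m .. 0` for the trivial bundle).
-/

set_option linter.unusedSectionVars false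
set_option linter.unusedVariables false

open scoped Manifold ContDiff Topology Matrix
open Set Filter

noncomputable section

namespace Vale.Agent.P267.H824

open FL XT RR BlockC

/-! ### oddness of the integral -/

section neg

variable {X : Type*} [TopologicalSpace X] [ChartedSpace C2 X] [T2Space X]
  [IsManifold 𝓘(ℂ, C2) ω X]
variable {ι : Type} [Fintype ι] [DecidableEq ι] {ι' : Type} [Fintype ι'] [DecidableEq ι']

theorem intX_neg' {b : X → ℂ} (hc : HasCompactSupport b) : intX (-b) = -intX b := by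
  have hc' : HasCompactSupport (-b) := hc.neg
  by_cases h : ∃ I, HasInt b I
  · obtain ⟨I, hI⟩ := h
    rw [H533.intX_eq_of_hasInt hc hI, H533.intX_eq_of_hasInt hc' (hasInt_neg hI)]
  · have h' : ¬ ∃ I, HasInt (-b) I := by
      rintro ⟨I, hI⟩
      have := hasInt_neg hI
      rw [neg_neg] at this
      exact h ⟨_, this⟩
    rw [intX, intX, dif_neg h, dif_neg h', neg_zero]

theorem isec_dual_left [CompactSpace X] (L : LB X ι) (L' : LB X ι') :
    isec L.dual L' = -isec L L' := by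
  have h : L.dual.curv.wedge L'.curv = -(L.curv.wedge L'.curv) := by
    funext x
    rw [wedge_dual_left]
    rfl
  rw [isec, h, intX_neg' (HasCompactSupport.of_compactSpace _), isec]
  ring

end neg

/-! ### the quotient `Cov hh → CovM hh m` -/

section cov

open H158

variable {X : Type} [TopologicalSpace X] [ChartedSpace C2 X] {hh : C(X, UnitAddCircle)}

theorem sh_eq_shift (D : XTData (Cov hh)) (hγ : ∀ x, D.γ x = Cov.γ x) (k : ℤ) (x : Cov hh) :
    D.sh k x = Cov.shift k x := by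
  revert k
  apply XTData.sh_induction
  · simp
  · intro k hk
    rw [← D.γ_sh, hγ, hk, Cov.γ, ← Cov.shift_add, add_comm]
  · intro k hk
    apply (D.γ).injective
    rw [D.γ_sh, sub_add_cancel, hk, hγ, Cov.γ, ← Cov.shift_add, add_sub_cancel]

theorem isQuot_toM (D : XTData (Cov hh)) (hγ : ∀ x, D.γ x = Cov.γ x) (m : ℕ) [NeZero m] :
    IsQuot D (m : ℤ) (Cov.toM m : Cov hh → CovM hh m) where
  cm := chartMap_toM
  surj := Cov.surjective_toM
  sh x := by rw [sh_eq_shift D hγ]; exact toM_shift_m x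
  fib x y h := by
    obtain ⟨k, hk⟩ := Cov.toM_eq_iff.1 h
    exact ⟨k, by rw [sh_eq_shift D hγ]; exact hk⟩

/-- the bundle `E'` on `CovM hh m` which is the periodic extension of `L` pulls back to the
bundle `Lm` of `PerSeq` -/
theorem per_P (D : XTData (Cov hh)) (hγ : ∀ x, D.γ x = Cov.γ x) (hf : ∀ x, D.f x = Cov.f x)
    {m : ℕ} [NeZero m] {ι : Type} [Fintype ι] [DecidableEq ι] {L Lm : LB (Cov hh) ι}
    (hP : ∀ x, Lm.P x = L.P (D.mv m x)) {E' : LB (CovM hh m) ι} (hE : IsPer hh m L E')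
    (x : Cov hh) : E'.P (Cov.toM m x) = Lm.P x := by
  have hm : (0 : ℤ) < m := by exact_mod_cast Nat.pos_of_ne_zero (NeZero.ne m)
  have h1 : Cov.toM m x = Cov.toM m (D.mv m x) := by
    rw [XTData.mv, ← mul_neg, sh_eq_shift D hγ]
    exact Cov.toM_eq_iff.2 ⟨_, rfl⟩
  have h2 : 2 * |Cov.f (D.mv m x)| ≤ (m : ℝ) := by
    rw [← hf]
    have := D.abs_f_mv hm x
    push_cast at this
    linarith
  rw [hP, h1]
  exact hE _ h2

end cov

/-! ### final statements -/

section final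

/-- what is used about the closed surface `Y` -/
structure RRIn (Y : Type) [TopologicalSpace Y] [ChartedSpace C2 Y] : Prop where
  fin : FiniteStmt Y
  serre : SerreStmt Y
  rr : RRStmt Y
  chiO : chi (OX Y) 0 0 = 0
  canon : ∃ K : ALB Y, IsCanon K.L

variable {M : Type} [TopologicalSpace M] [ChartedSpace C2 M] [IsManifold 𝓘(ℂ, C2) ω M]
variable {Y : Type} [TopologicalSpace Y] [ChartedSpace C2 Y] [IsManifold 𝓘(ℂ, C2) ω Y]
variable {ι : Type} [Fintype ι] [DecidableEq ι]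

theorem isHol_dual {X : Type*} [TopologicalSpace X] [ChartedSpace C2 X] {L : LB X ι}
    {a : X → Fin 2 → ℂ} (h : L.IsHol a) : L.dual.IsHol (-a) := by
  have e : -a = (-1 : ℂ) • a := by rw [neg_one_smul]
  refine ⟨?_, fun x => ?_⟩
  · rw [e]; exact Reg1.smul (-1) h.smooth
  · rw [e, dbar1_smul (-1) h.smooth, F02_dual]
    have := h.integrable x
    simp only [Pi.smul_apply, smul_eq_mul]
    linear_combination -this

theorem dual_dual {X : Type*} [TopologicalSpace X] [ChartedSpace C2 X] (L : LB X ι) :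
    L.dual.dual = L := lb_ext (by funext x; simp [LB.dual])

/-- general form: numbers on `Y` -/
theorem h1m_gen {D : XTData M} {m : ℕ} (hm : 0 < m) {q : M → Y} (hq : IsQuot D m q)
    (hY : RRIn Y) (L : LB M ι) (a : M → Fin 2 → ℂ) (hL : L.IsHol a)
    (ha : ∀ x, a (D.sh m x) = a x) {μ : ℂ} {δ : ℝ} (hμ : ‖μ‖ = Real.exp (δ * m)) (r : ℕ)
    {C C' : ℝ} (hT : D.T0 0 L a (ew δ) C) (hT' : D.T0 1 L.dual (-a) (ew (-δ)) C')
    (L' : LB Y ι) (hL' : ∀ x, L'.P (q x) = L.P x)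
    (num : ∀ K : ALB Y, IsCanon K.L → isec L' L' - isec K.L L' = -(2 * (r : ℂ))) :
    D.H1m L a m μ r := by
  obtain ⟨K, hK⟩ := hY.canon
  have hP : ∀ x, L.P (D.sh m x) = L.P x := fun x => by rw [← hL', hq.sh, hL']
  refine h1m hm hq hY.fin hY.serre hY.rr hY.chiO K.L hK L a hL hP ha hμ r hT hT' ?_
  rw [lbd_eq hq hP hL', isec_comm L' K.L]
  exact num K hK

/-- `e.e = K.e = -1`: `h¹ = 0` -/
theorem h1m_good {D : XTData M} {m : ℕ} (hm : 0 < m) {q : M → Y} (hq : IsQuot D m q)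
    (hY : RRIn Y) (L : LB M ι) (a : M → Fin 2 → ℂ) (hL : L.IsHol a)
    (ha : ∀ x, a (D.sh m x) = a x) {μ : ℂ} {δ : ℝ} (hμ : ‖μ‖ = Real.exp (δ * m))
    {C C' : ℝ} (hT : D.T0 0 L a (ew δ) C) (hT' : D.T0 1 L.dual (-a) (ew (-δ)) C')
    (L' : LB Y ι) (hL' : ∀ x, L'.P (q x) = L.P x) (sq : isec L' L' = -1)
    (can : ∀ K : ALB Y, IsCanon K.L → isec K.L L' = -1) :
    D.H1m L a m μ 0 :=
  h1m_gen hm hq hY L a hL ha hμ 0 hT hT' L' hL' fun K hK => by rw [sq, can K hK]; norm_num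

/-- `e.e = K.e = -1`: `h¹ ≤ 1` for the dual bundle -/
theorem h1m_good_dual [T2Space Y] [CompactSpace Y] {D : XTData M} {m : ℕ} (hm : 0 < m)
    {q : M → Y} (hq : IsQuot D m q)
    (hY : RRIn Y) (L : LB M ι) (a : M → Fin 2 → ℂ) (hL : L.IsHol a)
    (ha : ∀ x, a (D.sh m x) = a x) {μ : ℂ} {δ : ℝ} (hμ : ‖μ‖ = Real.exp (δ * m))
    {C C' : ℝ} (hT : D.T0 0 L.dual (-a) (ew δ) C) (hT' : D.T0 1 L a (ew (-δ)) C')
    (L' : LB Y ι) (hL' : ∀ x, L'.P (q x) = L.P x) (sq : isec L' L' = -1)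
    (can : ∀ K : ALB Y, IsCanon K.L → isec K.L L' = -1) :
    D.H1m L.dual (-a) m μ 1 := by
  refine h1m_gen hm hq hY L.dual (-a) (isHol_dual hL) (fun x => by
    rw [Pi.neg_apply, ha, Pi.neg_apply]) hμ 1 hT (by rwa [dual_dual, neg_neg]) L'.dual
    (fun x => by simp only [LB.dual, hL']) fun K hK => ?_
  rw [isec_dual_dual, isec_comm K.L, isec_dual_left, isec_comm L' K.L, sq, can K hK]
  norm_num

theorem isHol_triv {X : Type*} [TopologicalSpace X] [ChartedSpace C2 X]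
    [IsManifold 𝓘(ℂ, C2) ω X] (i₀ : ι) : (LB.triv i₀ : LB X ι).IsHol 0 := by
  refine ⟨reg1_zero 0, fun x => ?_⟩
  have : dbar1 (V := ℂ) 0 (0 : X → Fin 2 → ℂ) x = 0 := by
    have h := congrFun (dbar1_smul (0 : ℂ) (reg1_zero (X := X) (V := ℂ) (n := ∞) 0)) x
    simpa using h
  rw [F02_triv, this, add_zero]

/-- the trivial bundle: `h¹ = 0` -/
theorem h1m_triv [T2Space Y] {D : XTData M} {m : ℕ} (hm : 0 < m) {q : M → Y}
    (hq : IsQuot D m q) (hY : RRIn Y) (i₀ : ι) {μ : ℂ} {δ : ℝ} (hμ : ‖μ‖ = Real.exp (δ * m))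
    {C C' : ℝ} (hT : D.T0 0 (LB.triv i₀ : LB M ι) 0 (ew δ) C)
    (hT' : D.T0 1 (LB.triv i₀ : LB M ι) 0 (ew (-δ)) C') :
    D.H1m (LB.triv i₀ : LB M ι) 0 m μ 0 := by
  have hd : (LB.triv i₀ : LB M ι).dual = LB.triv i₀ := lb_ext (by
    funext x; simp [LB.dual, LB.triv, Matrix.transpose_single])
  refine h1m_gen hm hq hY (LB.triv i₀) 0 (isHol_triv i₀) (fun x => rfl) hμ 0 hT
    (by rwa [hd, neg_zero]) (LB.triv i₀) (fun x => rfl) fun K hK => ?_
  rw [isec_triv_left, isec_comm, isec_triv_left]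
  norm_num

end final

end Vale.Agent.P267.H824
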